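import Vale.Agent.P091.Phi

/-!
Elementary properties of the partial sums and the maximal function.
-/

noncomputable section

open MeasureTheory Filter
open scoped ENNReal Real Topology

namespace Vale.Agent.P091

theorem norm_fourier_apply (k : ℤ) (x : Circ) : ‖fourier k x‖ = 1 := by
  rw [fourier_apply, Circle.norm_coe]

theorem continuous_S (N : ℕ) (f : Circ → ℂ) : Continuous (S N f) := by
  unfold S
  exact continuous_finsetSum _ fun k _ => continuous_const.mul (map_continuous (fourier k))

theorem measurable_Smax (f : Circ → ℂ) : Measurable (Smax f) :=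
  Measurable.iSup fun N => (continuous_S N f).measurable.enorm

theorem S_congr {f g : Circ → ℂ} (h : f =ᵐ[μ] g) (N : ℕ) : S N f = S N g := by
  unfold S
  rw [fourierCoeff_congr_ae h]

theorem Smax_congr {f g : Circ → ℂ} (h : f =ᵐ[μ] g) : Smax f = Smax g := by
  funext x
  simp only [Smax, S_congr h]

theorem S_const_mul (c : ℂ) (f : Circ → ℂ) (N : ℕ) (x : Circ) :
    S N (fun y => c * f y) x = c * S N f x := by
  simp [S, fourierCoeff.const_mul, Finset.mul_sum, mul_assoc]

theorem Smax_const_mul (c : ℂ) (f : Circ → ℂ) (x : Circ) :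
    Smax (fun y => c * f y) x = ‖c‖ₑ * Smax f x := by
  simp only [Smax, S_const_mul, enorm_mul, ENNReal.mul_iSup]

theorem S_add {f g : Circ → ℂ} (hf : Integrable f μ) (hg : Integrable g μ) (N : ℕ) (x : Circ) :
    S N (fun y => f y + g y) x = S N f x + S N g x := by
  have h : fourierCoeff (fun y => f y + g y) = fourierCoeff f + fourierCoeff g :=
    fourierCoeff.add hf hg
  simp [S, h, add_mul, Finset.sum_add_distrib]

theorem S_translate (f : Circ → ℂ) (a : Circ) (N : ℕ) (x : Circ) :
    S N (fun y => f (y + a)) x = S N f (x + a) := by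
  have h : ∀ k : ℤ, fourierCoeff (fun y => f (y + a)) k = fourier k a * fourierCoeff f k := by
    intro k
    unfold fourierCoeff
    rw [← integral_const_mul]
    rw [← integral_add_right_eq_self (fun y => fourier k a * (fourier (-k) y • f y)) a]
    refine integral_congr_ae (ae_of_all _ fun y => ?_)
    simp only [fourier_apply, smul_eq_mul, smul_add, AddCircle.toCircle_add, Circle.coe_mul]
    have e : (AddCircle.toCircle (k • a) : ℂ) * AddCircle.toCircle ((-k) • a) = 1 := by
      rw [← Circle.coe_mul, ← AddCircle.toCircle_add, ← add_smul]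
      simp
    linear_combination (-(AddCircle.toCircle ((-k) • y) : ℂ) * f (y + a)) * e
  refine Finset.sum_congr rfl fun k _ => ?_
  rw [h k]
  simp only [fourier_apply, smul_add, AddCircle.toCircle_add, Circle.coe_mul]
  ring

theorem norm_fourierCoeff_le (f : Circ → ℂ) (k : ℤ) :
    ‖fourierCoeff f k‖ ≤ ∫ x, ‖f x‖ ∂μ := by
  refine (norm_integral_le_integral_norm _).trans (le_of_eq ?_)
  refine integral_congr_ae (ae_of_all _ fun x => ?_)
  simp [-fourier_apply, norm_fourier_apply]

theorem norm_S_le (N : ℕ) (f : Circ → ℂ) (x : Circ) :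
    ‖S N f x‖ ≤ (2 * N + 1) * ∫ y, ‖f y‖ ∂μ := by
  refine (norm_sum_le _ _).trans ((Finset.sum_le_sum (g := fun _ => ∫ y, ‖f y‖ ∂μ)
    fun k _ => ?_).trans_eq ?_)
  · rw [norm_mul, norm_fourier_apply, mul_one]
    exact norm_fourierCoeff_le f k
  · rw [Finset.sum_const, Int.card_Icc, nsmul_eq_mul,
      show ((N : ℤ) + 1 - -(N : ℤ)).toNat = 2 * N + 1 by omega]
    push_cast
    ring

theorem fourierCoeff_trig (M : ℕ) (c : ℤ → ℂ) (k : ℤ) :
    fourierCoeff (fun x : Circ => ∑ j ∈ Finset.Icc (-(M : ℤ)) M, c j * fourier j x) k =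
      if k ∈ Finset.Icc (-(M : ℤ)) M then c k else 0 := by
  have e : (fun x : Circ => ∑ j ∈ Finset.Icc (-(M : ℤ)) M, c j * fourier j x) =
      ∑ j ∈ Finset.Icc (-(M : ℤ)) M, (fun x : Circ => c j * fourier j x) := by
    funext x
    rw [Finset.sum_apply]
  have hi : ∀ j ∈ Finset.Icc (-(M : ℤ)) M, Integrable (fun x : Circ => c j * fourier j x) μ :=
    fun j _ => (continuous_const.mul (map_continuous (fourier j))).integrable_of_hasCompactSupport
      (HasCompactSupport.of_compactSpace _)
  rw [e, fourierCoeff.sum _ _ hi, Finset.sum_apply]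
  simp only [fourierCoeff.const_mul, fourierCoeff_fourier, Pi.single_apply, mul_ite, mul_one,
    mul_zero]
  rw [Finset.sum_ite_eq]

theorem IsTrigPoly.continuous {P : Circ → ℂ} (h : IsTrigPoly P) : Continuous P := by
  obtain ⟨M, c, rfl⟩ := h
  exact continuous_finsetSum _ fun k _ => continuous_const.mul (map_continuous (fourier k))

theorem IsTrigPoly.integrable {P : Circ → ℂ} (h : IsTrigPoly P) : Integrable P μ :=
  h.continuous.integrable_of_hasCompactSupport (HasCompactSupport.of_compactSpace _)

theorem IsTrigPoly.const_mul {P : Circ → ℂ} (h : IsTrigPoly P) (a : ℂ) :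
    IsTrigPoly fun x => a * P x := by
  obtain ⟨M, c, rfl⟩ := h
  exact ⟨M, fun k => a * c k, funext fun x => by simp [Finset.mul_sum, mul_assoc]⟩

/-- The partial sums of a trigonometric polynomial are eventually the polynomial. -/
theorem IsTrigPoly.eventually_S {P : Circ → ℂ} (h : IsTrigPoly P) :
    ∀ᶠ N in atTop, ∀ x, S N P x = P x := by
  obtain ⟨M, c, rfl⟩ := h
  filter_upwards [eventually_ge_atTop M] with N hN x
  simp only [S, fourierCoeff_trig]
  have hsub : Finset.Icc (-(M : ℤ)) M ⊆ Finset.Icc (-(N : ℤ)) N :=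
    Finset.Icc_subset_Icc (by omega) (by omega)
  rw [← Finset.sum_subset hsub (fun k _ hk => by rw [if_neg hk, zero_mul])]
  exact Finset.sum_congr rfl fun k hk => by rw [if_pos hk]

end Vale.Agent.P091
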