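import Vale.Agent.P091.Basic

/-!
Few translates of a set of positive measure cover most of the circle.
-/

noncomputable section

open MeasureTheory Filter
open scoped ENNReal Real Topology

namespace Vale.Agent.P091

/-- The points covered by none of the translates. -/
def uncovered (A : Set Circ) (a : ℕ → Circ) (k : ℕ) : Set Circ :=
  {x | ∀ l < k, x + a l ∉ A}

theorem exists_translate {A U : Set Circ} (hA : MeasurableSet A) (hU : MeasurableSet U) :
    ∃ a, μ (U ∩ {x | x + a ∉ A}) ≤ μ U * μ Aᶜ := by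
  have hs : MeasurableSet {p : Circ × Circ | p.2 ∈ U ∧ p.2 + p.1 ∉ A} :=
    (measurable_snd hU).inter ((measurable_snd.add measurable_fst) hA.compl)
  have hm := measurable_measure_prodMk_left (ν := μ) hs
  obtain ⟨a, ha⟩ := exists_le_lintegral (μ := μ) hm.aemeasurable
  refine ⟨a, ha.trans (le_of_eq ?_)⟩
  rw [← Measure.prod_apply hs, Measure.prod_apply_symm hs]
  have e : ∀ y, μ ((fun x => (x, y)) ⁻¹' {p : Circ × Circ | p.2 ∈ U ∧ p.2 + p.1 ∉ A}) =
      U.indicator (fun _ => μ Aᶜ) y := by
    intro y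
    by_cases hy : y ∈ U
    · rw [Set.indicator_of_mem hy, ← measure_preimage_add μ y Aᶜ]
      exact congrArg μ (by ext x; simp [hy])
    · simp [hy]
  simp only [e]
  rw [lintegral_indicator_const hU, mul_comm]

theorem exists_uncovered {A : Set Circ} (hA : MeasurableSet A) (k : ℕ) :
    ∃ a : ℕ → Circ, μ (uncovered A a k) ≤ μ Aᶜ ^ k := by
  induction k with
  | zero => exact ⟨fun _ => 0, by simp [uncovered]⟩
  | succ k ih =>
    obtain ⟨a, ha⟩ := ih
    have hU : MeasurableSet (uncovered A a k) := by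
      have : uncovered A a k = ⋂ l ∈ Finset.range k, {x | x + a l ∈ A}ᶜ := by
        ext x; simp [uncovered]
      rw [this]
      exact Finset.measurableSet_biInter _ fun l _ =>
        ((measurable_id.add_const _) hA).compl
    obtain ⟨b, hb⟩ := exists_translate hA hU
    refine ⟨Function.update a k b, ?_⟩
    have : uncovered A (Function.update a k b) (k + 1) = uncovered A a k ∩ {x | x + b ∉ A} := by
      ext x
      simp only [uncovered, Set.mem_ofPred_eq, Set.mem_inter_iff, Nat.forall_lt_succ_right,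
        Function.update_self]
      refine and_congr_left fun _ => forall₂_congr fun l hl => ?_
      rw [Function.update_of_ne hl.ne]
    rw [this, pow_succ]
    exact hb.trans (mul_le_mul_left ha _)

/-- About `j / μ A` translates leave at most `1 / (j + 1)` uncovered. -/
theorem exists_cover {A : Set Circ} (hA : MeasurableSet A) (hpos : μ A ≠ 0) (j : ℕ) :
    ∃ (k : ℕ) (a : ℕ → Circ), (k : ℝ≥0∞) * μ A ≤ j + 1 ∧
      μ (uncovered A a k) ≤ ((j + 1 : ℕ) : ℝ≥0∞)⁻¹ := by
  set m := (μ A).toReal with hm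
  have hfin : μ A ≠ ∞ := measure_ne_top _ _
  have hm0 : 0 < m := ENNReal.toReal_pos hpos hfin
  have hm1 : m ≤ 1 := ENNReal.toReal_le_of_le_ofReal zero_le_one (by simpa using prob_le_one)
  set k := ⌈(j : ℝ) / m⌉₊ with hk
  obtain ⟨a, ha⟩ := exists_uncovered hA k
  refine ⟨k, a, ?_, ha.trans ?_⟩
  · have h := Nat.ceil_lt_add_one (show (0 : ℝ) ≤ j / m by positivity)
    rw [← hk] at h
    have : (k : ℝ) * m ≤ j + 1 := by
      have h' := mul_le_mul_of_nonneg_right h.le hm0.le
      rw [add_mul, div_mul_cancel₀ _ hm0.ne', one_mul] at h'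
      linarith
    rw [← ENNReal.ofReal_toReal hfin, ← ENNReal.ofReal_natCast k,
      ← ENNReal.ofReal_mul (Nat.cast_nonneg _)]
    exact (ENNReal.ofReal_le_ofReal this).trans_eq (by
      rw [ENNReal.ofReal_add (Nat.cast_nonneg _) zero_le_one, ENNReal.ofReal_natCast,
        ENNReal.ofReal_one])
  · have hc : μ Aᶜ = ENNReal.ofReal (1 - m) := by
      rw [prob_compl_eq_one_sub hA, hm, ENNReal.ofReal_sub _ ENNReal.toReal_nonneg,
        ENNReal.ofReal_one, ENNReal.ofReal_toReal hfin]
    rw [hc, ← ENNReal.ofReal_pow (by linarith), ← ENNReal.ofReal_natCast (j + 1),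
      ← ENNReal.ofReal_inv_of_pos (by positivity)]
    refine ENNReal.ofReal_le_ofReal ?_
    have hkm : (j : ℝ) ≤ k * m := by
      have h' := mul_le_mul_of_nonneg_right (Nat.le_ceil ((j : ℝ) / m)) hm0.le
      rwa [div_mul_cancel₀ _ hm0.ne'] at h'
    have hb := one_add_mul_le_pow (show (-2 : ℝ) ≤ m by linarith) k
    have h2 : (1 - m) ^ k * (1 + m) ^ k ≤ 1 := by
      rw [← mul_pow]
      exact pow_le_one₀ (by nlinarith) (by nlinarith)
    rw [inv_eq_one_div, le_div_iff₀ (by positivity)]
    push_cast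
    have h3 : (0 : ℝ) ≤ (1 - m) ^ k := pow_nonneg (by linarith) _
    nlinarith [mul_le_mul_of_nonneg_left (le_trans (by linarith : (j : ℝ) + 1 ≤ 1 + k * m) hb) h3]

end Vale.Agent.P091
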