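import Mathlib

/-!
Definitions for P091: partial sums of Fourier series, the maximal partial sum operator and the
modular of `L log L` on the circle of length `2 π` with normalised Haar measure.
-/

noncomputable section

open MeasureTheory
open scoped ENNReal Real

namespace Vale.Agent.P091

instance fact_two_pi_pos : Fact (0 < 2 * π) := ⟨Real.two_pi_pos⟩

/-- The circle `ℝ / 2 π ℤ`. -/
abbrev Circ : Type := AddCircle (2 * π)

/-- The normalised Lebesgue measure. -/
abbrev μ : Measure Circ := AddCircle.haarAddCircle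

/-- The symmetric partial sum `∑_{|k| ≤ N} f̂(k) e^{ikx}`. -/
def S (N : ℕ) (f : Circ → ℂ) (x : Circ) : ℂ :=
  ∑ k ∈ Finset.Icc (-(N : ℤ)) N, fourierCoeff f k * fourier k x

/-- The Carleson maximal function `sup_N |S_N f|`, with values in `[0, ∞]`. -/
def Smax (f : Circ → ℂ) (x : Circ) : ℝ≥0∞ := ⨆ N, ‖S N f x‖ₑ

/-- `u log (2 + u)`. -/
def phi (u : ℝ) : ℝ := u * Real.log (2 + u)

/-- `∫ |f| log (2 + |f|)`, with values in `[0, ∞]`. -/
def modular (f : Circ → ℂ) : ℝ≥0∞ := ∫⁻ x, ENNReal.ofReal (phi ‖f x‖) ∂μ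

/-- The class `L log L`. -/
def InLLogL (f : Circ → ℂ) : Prop := AEStronglyMeasurable f μ ∧ modular f < ∞

/-- A trigonometric polynomial. -/
def IsTrigPoly (P : Circ → ℂ) : Prop :=
  ∃ (M : ℕ) (c : ℤ → ℂ), P = fun x => ∑ k ∈ Finset.Icc (-(M : ℤ)) M, c k * fourier k x

end Vale.Agent.P091
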