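import Vale.Agent.P091.Basic

/-!
Trigonometric polynomials are dense in `L log L` for the modular.
-/

noncomputable section

open MeasureTheory Filter
open scoped ENNReal Real Topology

namespace Vale.Agent.P091

theorem modular_le_L2 {g : Circ → ℂ} (hg : AEStronglyMeasurable g μ) :
    modular g ≤ eLpNorm g 2 μ + eLpNorm g 2 μ ^ 2 := by
  have h1 : ∫⁻ x, ‖g x‖ₑ ∂μ ≤ eLpNorm g 2 μ := by
    rw [← eLpNorm_one_eq_lintegral_enorm]
    exact eLpNorm_le_eLpNorm_of_exponent_le (by norm_num) hg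
  have h2 : ∫⁻ x, ‖g x‖ₑ ^ 2 ∂μ = eLpNorm g 2 μ ^ 2 := by
    have := eLpNorm_nnreal_pow_eq_lintegral (μ := μ) (f := g) (p := (2 : NNReal)) (by norm_num)
    simpa using this.symm
  refine le_trans ?_ (add_le_add h1 h2.le)
  rw [← lintegral_add_left' hg.enorm]
  refine lintegral_mono fun x => ?_
  rw [← ofReal_norm, ← ENNReal.ofReal_pow (norm_nonneg _),
    ← ENNReal.ofReal_add (norm_nonneg _) (sq_nonneg _)]
  exact ENNReal.ofReal_le_ofReal (phi_le_sq (norm_nonneg _))

theorem exists_trig_L2 {g : Circ → ℂ} (hg : MemLp g 2 μ) {ε : ℝ≥0∞} (hε : 0 < ε) :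
    ∃ P, IsTrigPoly P ∧ eLpNorm (fun x => g x - P x) 2 μ ≤ ε := by
  set u : Lp ℂ 2 μ := hg.toLp g with hu
  obtain ⟨F, hF⟩ := eventually_atTop.1
    ((EMetric.tendsto_nhds.1 (hasSum_fourier_series_L2 u)) ε hε)
  set M := F.sup Int.natAbs with hM
  have hsub : F ⊆ Finset.Icc (-(M : ℤ)) M := by
    intro k hk
    have h' : k.natAbs ≤ M := Finset.le_sup (f := Int.natAbs) hk
    simp only [Finset.mem_Icc]
    omega
  have hd := (hF _ hsub).le
  refine ⟨_, ⟨M, fourierCoeff u, rfl⟩, ?_⟩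
  refine le_trans (le_of_eq ?_) hd
  rw [edist_comm, Lp.edist_def]
  refine eLpNorm_congr_ae ?_
  have hsum := Lp.coeFn_finsetSum (Finset.Icc (-(M : ℤ)) M)
    (fun i => fourierCoeff u i • fourierLp (T := 2 * π) 2 i)
  have hall : ∀ᵐ x ∂μ, ∀ i : ℤ, (fourierCoeff u i • fourierLp (T := 2 * π) 2 i : Lp ℂ 2 μ) x
      = fourierCoeff u i * fourier i x := by
    refine ae_all_iff.2 fun i => ?_
    filter_upwards [Lp.coeFn_smul (fourierCoeff u i) (fourierLp (T := 2 * π) 2 i),
      coeFn_fourierLp (T := 2 * π) 2 i] with x a b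
    rw [a, Pi.smul_apply, b, smul_eq_mul]
  have hug : u =ᵐ[μ] g := hu ▸ hg.coeFn_toLp
  filter_upwards [Lp.coeFn_sub u (∑ i ∈ Finset.Icc (-(M : ℤ)) M,
    fourierCoeff u i • fourierLp (T := 2 * π) 2 i), hug, hsum, hall] with x d a b c
  simp only [Pi.sub_apply]
  rw [a, b, Finset.sum_apply, Finset.sum_congr rfl fun i _ => c i]

theorem exists_truncation {f : Circ → ℂ} (hf : InLLogL f) {ε : ℝ≥0∞} (hε : 0 < ε) :
    ∃ g, MemLp g 2 μ ∧ modular (fun x => f x - g x) ≤ ε := by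
  have hm : AEStronglyMeasurable (hf.1.mk f) μ := hf.1.stronglyMeasurable_mk.aestronglyMeasurable
  set f₁ := hf.1.mk f with hf₁
  have hf₁m : Measurable f₁ := hf.1.stronglyMeasurable_mk.measurable
  set g : ℕ → Circ → ℂ := fun n => {x | ‖f₁ x‖ ≤ n}.indicator f₁ with hg
  have hgm : ∀ n, Measurable (g n) := fun n =>
    hf₁m.indicator (measurableSet_le hf₁m.norm measurable_const)
  have hlim : Tendsto (fun n => modular (fun x => f₁ x - g n x)) atTop (𝓝 0) := by
    have := tendsto_lintegral_of_dominated_convergence' (μ := μ)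
      (F := fun n x => ENNReal.ofReal (phi ‖f₁ x - g n x‖)) (f := fun _ => 0)
      (fun x => ENNReal.ofReal (phi ‖f₁ x‖))
      (fun n => aemeasurable_phi (hm.sub (hgm n).aestronglyMeasurable))
      (fun n => ae_of_all _ fun x => ?_) ?_ (ae_of_all _ fun x => ?_)
    · simpa [modular] using this
    · by_cases hx : ‖f₁ x‖ ≤ n <;> simp [hg, hx, phi_zero]
    · exact ((modular_congr hf.1.ae_eq_mk).symm.trans_lt hf.2).ne
    · refine tendsto_const_nhds.congr' ?_
      filter_upwards [eventually_ge_atTop ⌈‖f₁ x‖⌉₊] with n hn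
      have : ‖f₁ x‖ ≤ n := Nat.le_of_ceil_le hn
      simp [hg, this, phi_zero]
  obtain ⟨n, hn⟩ := (hlim.eventually (eventually_le_nhds hε)).exists
  refine ⟨g n, MemLp.of_bound (hgm n).aestronglyMeasurable n (ae_of_all _ fun x => ?_), ?_⟩
  · by_cases hx : ‖f₁ x‖ ≤ n <;> simp [hg, hx]
  · refine (modular_congr ?_).trans_le hn
    filter_upwards [hf.1.ae_eq_mk] with x hx
    rw [hx]

theorem exists_trig_modular {f : Circ → ℂ} (hf : InLLogL f) {ε : ℝ} (hε : 0 < ε) :
    ∃ P, IsTrigPoly P ∧ modular (fun x => f x - P x) ≤ ENNReal.ofReal ε := by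
  set η : ℝ := min (ε / 16) 1 with hη
  have hη0 : 0 < η := lt_min (by positivity) one_pos
  obtain ⟨g, hg, hfg⟩ := exists_truncation hf (ENNReal.ofReal_pos.2 hη0)
  obtain ⟨P, hP, hgP⟩ := exists_trig_L2 hg (ENNReal.ofReal_pos.2 hη0)
  refine ⟨P, hP, ?_⟩
  have h2 := (modular_le_L2 (hg.1.sub hP.continuous.aestronglyMeasurable)).trans
    (add_le_add hgP (pow_le_pow_left' hgP 2))
  have h3 : modular (fun x => f x - P x) ≤ 4 * (modular (fun x => f x - g x) +
      modular (fun x => g x - P x)) := by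
    refine le_trans (le_of_eq ?_) (modular_add_le (hf.1.sub hg.1))
    exact congrArg modular (funext fun x => by ring)
  refine h3.trans ((mul_le_mul_right (add_le_add hfg h2) _).trans ?_)
  rw [← ENNReal.ofReal_pow hη0.le, ← ENNReal.ofReal_add hη0.le (sq_nonneg _),
    ← ENNReal.ofReal_add hη0.le (by positivity), show (4 : ℝ≥0∞) = ENNReal.ofReal 4 by norm_num,
    ← ENNReal.ofReal_mul (by norm_num)]
  refine ENNReal.ofReal_le_ofReal ?_
  have a : η ≤ ε / 16 := min_le_left _ _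
  have b : η ≤ 1 := min_le_right _ _
  nlinarith

end Vale.Agent.P091
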