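import Vale.Agent.P091.Random

/-!
Superposition with random multipliers: a modular-summable family whose maximal functions are
unbounded a.e. yields one function with a.e. infinite maximal function.
-/

noncomputable section

open MeasureTheory Filter
open scoped ENNReal Real Topology

namespace Vale.Agent.P091

/-- The random superposition. -/
def mix (h : ℕ → Circ → ℂ) (t : ℕ → ℝ) (x : Circ) : ℂ := ∑' i, (clip (t i) : ℂ) * h i x

variable {h : ℕ → Circ → ℂ} (hm : ∀ i, Measurable (h i))
  (hs : ∀ x, Summable fun i => ‖h i x‖)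

theorem norm_clip_mul_le (s : ℝ) (z : ℂ) : ‖(clip s : ℂ) * z‖ ≤ ‖z‖ := by
  rw [norm_mul, Complex.norm_real, Real.norm_eq_abs]
  exact mul_le_of_le_one_left (norm_nonneg _) (abs_clip_le _)

include hs in
theorem summable_mix (t : ℕ → ℝ) (x : Circ) : Summable fun i => (clip (t i) : ℂ) * h i x :=
  Summable.of_norm_bounded (hs x) fun _ => norm_clip_mul_le _ _

include hs in
theorem tendsto_randSum_mix (t : ℕ → ℝ) (x : Circ) :
    Tendsto (fun n => randSum (fun i => h i x) n t) atTop (𝓝 (mix h t x)) :=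
  (summable_mix hs t x).hasSum.tendsto_sum_nat

include hm hs in
theorem measurable_mix : Measurable fun p : (ℕ → ℝ) × Circ => mix h p.1 p.2 := by
  refine measurable_of_tendsto_metrizable (fun n => ?_)
    (tendsto_pi_nhds.2 fun p => tendsto_randSum_mix hs p.1 p.2)
  exact Finset.measurable_sum _ fun i _ =>
    (Complex.measurable_ofReal.comp (measurable_clip.comp
      ((measurable_pi_apply i).comp measurable_fst))).mul ((hm i).comp measurable_snd)

include hm hs in
theorem measurable_S_mix (N : ℕ) :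
    Measurable fun p : (ℕ → ℝ) × Circ => S N (mix h p.1) p.2 := by
  refine Finset.measurable_sum _ fun k _ => ?_
  refine Measurable.mul ?_ ((map_continuous (fourier k)).measurable.comp measurable_snd)
  suffices h' : Measurable fun t => fourierCoeff (mix h t) k from h'.comp measurable_fst
  unfold fourierCoeff
  exact (StronglyMeasurable.integral_prod_right'
    (f := fun q : (ℕ → ℝ) × Circ => fourier (-k) q.2 • mix h q.1 q.2)
    (((map_continuous (fourier (-k))).measurable.comp measurable_snd).smul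
      (measurable_mix hm hs)).stronglyMeasurable).measurable

include hm hs in
theorem integrable_mix (hfin : ∑' i, modular (h i) ≠ ∞) (t : ℕ → ℝ) :
    Integrable (mix h t) μ := by
  refine ⟨((measurable_mix hm hs).comp measurable_prodMk_left).aestronglyMeasurable, ?_⟩
  have hb : ∀ x, ‖mix h t x‖ₑ ≤ ∑' i, ‖h i x‖ₑ := by
    intro x
    refine le_of_tendsto' (tendsto_randSum_mix hs t x).enorm fun n => ?_
    refine (enorm_sum_le _ _).trans ((Finset.sum_le_sum fun i _ => ?_).trans (ENNReal.sum_le_tsum _))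
    rw [← ofReal_norm, ← ofReal_norm]
    exact ENNReal.ofReal_le_ofReal (norm_clip_mul_le _ _)
  refine lt_of_le_of_lt (lintegral_mono hb) ?_
  rw [lintegral_tsum fun i => (hm i).enorm.aemeasurable]
  refine lt_of_le_of_lt (ENNReal.tsum_le_tsum fun i => lintegral_enorm_le (h i)) ?_
  rw [ENNReal.tsum_mul_left]
  exact ENNReal.mul_lt_top (by norm_num) hfin.lt_top

include hs in
theorem mix_split (t : ℕ → ℝ) (i : ℕ) (s : ℝ) :
    mix h (Function.update t i s) =
      fun x => (clip s : ℂ) * h i x + mix h (Function.update t i 0) x := by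
  funext x
  rw [mix, mix, (summable_mix hs _ x).tsum_eq_add_tsum_ite i, Function.update_self]
  refine congrArg _ (tsum_congr fun j => ?_)
  rcases eq_or_ne j i with rfl | hj
  · simp [clip_zero]
  · simp [hj]

include hm hs in
theorem small_ball_mix (hfin : ∑' i, modular (h i) ≠ ∞) (i N : ℕ) (x : Circ) (R : ℝ)
    (ha : S N (h i) x ≠ 0) :
    rand {t | ‖S N (mix h t) x‖ ≤ R} ≤ ENNReal.ofReal (R / ‖S N (h i) x‖) := by
  have hE : MeasurableSet {t | ‖S N (mix h t) x‖ ≤ R} :=
    measurableSet_le ((measurable_S_mix hm hs N).comp measurable_prodMk_right).norm measurable_const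
  rw [← (rand_resample i).measure_preimage hE.nullMeasurableSet,
    Measure.prod_apply ((rand_resample i).measurable hE)]
  refine (lintegral_mono (g := fun _ => ENNReal.ofReal (R / ‖S N (h i) x‖)) fun t => ?_).trans_eq ?_
  · refine le_trans (le_of_eq (congrArg unif (Set.ext fun s => ?_)))
      (unif_small_ball ha (S N (mix h (Function.update t i 0)) x) R)
    have hint : Integrable (h i) μ :=
      InLLogL.integrable ⟨(hm i).aestronglyMeasurable, (ENNReal.le_tsum i).trans_lt hfin.lt_top⟩
    simp only [Set.mem_preimage, Set.mem_ofPred_eq]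
    rw [mix_split hs t i s, S_add (hint.const_mul _) (integrable_mix hm hs hfin _), S_const_mul]
  · rw [lintegral_const, measure_univ, mul_one]

include hm hs in
theorem ae_Smax_mix (hfin : ∑' i, modular (h i) ≠ ∞) {x : Circ} (hx : ⨆ i, Smax (h i) x = ∞) :
    ∀ᵐ t ∂rand, Smax (mix h t) x = ∞ := by
  have hR : ∀ R : ℕ, rand {t | Smax (mix h t) x ≤ (R : ℝ≥0∞)} = 0 := by
    intro R
    refine le_antisymm (le_of_forall_gt_imp_ge_of_dense fun ε hε => ?_) zero_le
    obtain ⟨e, he, hee⟩ : ∃ e : ℝ, 0 < e ∧ ENNReal.ofReal e ≤ ε := by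
      rcases eq_or_ne ε ∞ with rfl | h'
      · exact ⟨1, one_pos, le_top⟩
      · exact ⟨ε.toReal, ENNReal.toReal_pos hε.ne' h', ENNReal.ofReal_toReal_le⟩
    have hlt : ENNReal.ofReal ((R + 1) / e) < ⨆ i, Smax (h i) x := hx ▸ ENNReal.ofReal_lt_top
    obtain ⟨i, hi⟩ := lt_iSup_iff.1 hlt
    obtain ⟨N, hN⟩ := lt_iSup_iff.1 hi
    rw [← ofReal_norm, ENNReal.ofReal_lt_ofReal_iff_of_nonneg (by positivity)] at hN
    have ha : S N (h i) x ≠ 0 := fun h0 => by
      rw [h0, norm_zero] at hN
      exact absurd hN (not_lt.2 (by positivity))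
    refine le_trans (measure_mono fun t ht => ?_) ((small_ball_mix hm hs hfin i N x R ha).trans
      ((ENNReal.ofReal_le_ofReal ?_).trans hee))
    · have h1 : ‖S N (mix h t) x‖ₑ ≤ (R : ℝ≥0∞) := (le_iSup (fun N => ‖S N (mix h t) x‖ₑ) N).trans ht
      rw [← ofReal_norm, ← ENNReal.ofReal_natCast,
        ENNReal.ofReal_le_ofReal_iff (Nat.cast_nonneg _)] at h1
      exact h1
    · rw [div_le_iff₀ (norm_pos_iff.2 ha)]
      rw [div_lt_iff₀ he] at hN
      nlinarith
  refine measure_mono_null (fun t ht => ?_) (measure_iUnion_null hR)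
  obtain ⟨R, hR'⟩ := ENNReal.exists_nat_gt (show Smax (mix h t) x ≠ ∞ from ht)
  exact Set.mem_iUnion.2 ⟨R, hR'.le⟩

include hm hs in
theorem exists_divergent_mix (hfin : ∑' i, modular (h i) ≠ ∞)
    (hx : ∀ᵐ x ∂μ, ⨆ i, Smax (h i) x = ∞) :
    ∃ f, InLLogL f ∧ ∀ᵐ x ∂μ, Smax f x = ∞ := by
  have hSm : Measurable fun p : (ℕ → ℝ) × Circ => Smax (mix h p.1) p.2 :=
    Measurable.iSup fun N => (measurable_S_mix hm hs N).enorm
  have h1 : ∀ᵐ t ∂rand, ∀ᵐ x ∂μ, Smax (mix h t) x = ∞ :=
    (Measure.ae_ae_comm (p := fun t x => Smax (mix h t) x = ∞)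
      (hSm (measurableSet_singleton ∞))).2 (hx.mono fun x hx => ae_Smax_mix hm hs hfin hx)
  have hphi : Measurable fun p : (ℕ → ℝ) × Circ => ENNReal.ofReal (phi ‖mix h p.1 p.2‖) :=
    (continuous_phi_norm.measurable.comp (measurable_mix hm hs)).ennreal_ofReal
  have hpt : ∀ x, ∫⁻ t, ENNReal.ofReal (phi ‖mix h t x‖) ∂rand ≤
      2 * ∑' i, ENNReal.ofReal (phi ‖h i x‖) := by
    intro x
    have hlim : ∀ t, liminf (fun n => ENNReal.ofReal (phi ‖randSum (fun i => h i x) n t‖)) atTop
        = ENNReal.ofReal (phi ‖mix h t x‖) := fun t =>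
      ((ENNReal.continuous_ofReal.tendsto _).comp
        ((continuous_phi_norm.tendsto _).comp (tendsto_randSum_mix hs t x))).liminf_eq
    simp_rw [← hlim]
    refine (lintegral_liminf_le fun n =>
      (continuous_phi_norm.measurable.comp (measurable_randSum _ n)).ennreal_ofReal).trans ?_
    exact liminf_le_of_frequently_le'
      (Frequently.of_forall fun n => lintegral_phi_randSum _ n)
  have h2 : ∀ᵐ t ∂rand, modular (mix h t) < ∞ := by
    refine ae_lt_top hphi.lintegral_prod_right' (ne_top_of_le_ne_top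
      (ENNReal.mul_ne_top (by norm_num : (2 : ℝ≥0∞) ≠ ∞) hfin) ?_)
    simp only [modular]
    rw [lintegral_lintegral_swap (f := fun t x => ENNReal.ofReal (phi ‖mix h t x‖))
      hphi.aemeasurable]
    refine (lintegral_mono hpt).trans (le_of_eq ?_)
    rw [lintegral_const_mul' _ _ (by norm_num), lintegral_tsum fun i =>
      aemeasurable_phi (hm i).aestronglyMeasurable]
  obtain ⟨t, ht, ht'⟩ := (h1.and h2).exists
  exact ⟨mix h t, ⟨((measurable_mix hm hs).comp measurable_prodMk_left).aestronglyMeasurable, ht'⟩, ht⟩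

omit hm hs

/-- The superposition principle. -/
theorem exists_divergent (h : ℕ → Circ → ℂ) (hh : ∀ i, InLLogL (h i))
    (hfin : ∑' i, modular (h i) ≠ ∞) (hx : ∀ᵐ x ∂μ, ⨆ i, Smax (h i) x = ∞) :
    ∃ f, InLLogL f ∧ ∀ᵐ x ∂μ, Smax f x = ∞ := by
  set k : ℕ → Circ → ℂ := fun i => (hh i).1.mk (h i) with hk
  have hkm : ∀ i, Measurable (k i) := fun i => (hh i).1.stronglyMeasurable_mk.measurable
  set G : Set Circ := {x | ∑' i, ‖k i x‖ₑ ≠ ∞} with hG
  have hGm : MeasurableSet G :=
    (Measurable.tsum fun i => (hkm i).enorm) (measurableSet_singleton ∞).compl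
  have hGae : ∀ᵐ x ∂μ, x ∈ G := by
    refine (ae_lt_top (Measurable.tsum fun i => (hkm i).enorm) ?_).mono fun x hx => hx.ne
    rw [lintegral_tsum fun i => (hkm i).enorm.aemeasurable]
    refine ne_top_of_le_ne_top (ENNReal.mul_ne_top (by norm_num : (2 : ℝ≥0∞) ≠ ∞) hfin) ?_
    rw [← ENNReal.tsum_mul_left]
    refine ENNReal.tsum_le_tsum fun i => ?_
    rw [modular_congr (hh i).1.ae_eq_mk]
    exact lintegral_enorm_le _
  have heq : ∀ i, h i =ᵐ[μ] G.indicator (k i) := fun i => by
    filter_upwards [(hh i).1.ae_eq_mk, hGae] with x a b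
    rw [Set.indicator_of_mem b, hk]
    exact a
  refine exists_divergent_mix (h := fun i => G.indicator (k i)) (fun i => (hkm i).indicator hGm)
    (fun x => ?_) ?_ ?_
  · by_cases hxG : x ∈ G
    · simp only [Set.indicator_of_mem hxG]
      have := ENNReal.summable_toReal hxG
      simpa using this
    · simp [Set.indicator_of_notMem hxG, summable_zero]
  · simpa only [← modular_congr (heq _)] using hfin
  · simpa only [← Smax_congr (heq _)] using hx

end Vale.Agent.P091
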