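import Vale.Agent.P091.Cover
import Vale.Agent.P091.Density
import Vale.Agent.P091.Principle

/-!
Equivalence of a.e. convergence on `L log L`, the weak type estimates and their restrictions.
-/

noncomputable section

open MeasureTheory Filter
open scoped ENNReal NNReal Real Topology

namespace Vale.Agent.P091

/-- A.e. convergence on `L log L`. -/
def AEConvergence : Prop :=
  ∀ f, InLLogL f → ∀ᵐ x ∂μ, Tendsto (fun N => S N f x) atTop (𝓝 (f x))

/-- No function in `L log L` has an a.e. infinite maximal partial sum. -/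
def NoAEDivergence : Prop := ∀ f, InLLogL f → ¬ ∀ᵐ x ∂μ, Smax f x = ∞

/-- The modular weak type estimate. -/
def WeakModular : Prop :=
  ∃ C : ℝ≥0, ∀ f, InLLogL f → ∀ r : ℝ, 0 < r →
    μ {x | ENNReal.ofReal r < Smax f x} ≤ C * modular (fun x => f x / (r : ℂ))

/-- Weak `L¹` estimate with respect to the Luxemburg norm. -/
def WeakL1 : Prop :=
  ∃ C : ℝ≥0, ∀ f, InLLogL f → ∀ s : ℝ, 0 < s → modular (fun x => f x / (s : ℂ)) ≤ 1 →
    ∀ r : ℝ, 0 < r → μ {x | ENNReal.ofReal r < Smax f x} ≤ C * ENNReal.ofReal (s / r)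

/-- One threshold works for all trigonometric polynomials in the unit modular ball. -/
def TrigBound : Prop :=
  ∃ (K : ℝ≥0) (δ : ℝ≥0∞), δ < 1 ∧
    ∀ P, IsTrigPoly P → modular P ≤ 1 → μ {x | (K : ℝ≥0∞) < Smax P x} ≤ δ

theorem modular_translate (f : Circ → ℂ) (a : Circ) : modular (fun x => f (x + a)) = modular f :=
  lintegral_add_right_eq_self (μ := μ) (fun x => ENNReal.ofReal (phi ‖f x‖)) a

theorem InLLogL.translate {f : Circ → ℂ} (hf : InLLogL f) (a : Circ) :
    InLLogL fun x => f (x + a) :=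
  ⟨hf.1.comp_measurePreserving (measurePreserving_add_right μ a),
    (modular_translate f a).trans_lt hf.2⟩

theorem InLLogL.const_mul {f : Circ → ℂ} (hf : InLLogL f) (c : ℂ) :
    InLLogL fun x => c * f x :=
  ⟨hf.1.const_mul c,
    (modular_const_mul_le c f).trans_lt (ENNReal.mul_lt_top ENNReal.ofReal_lt_top hf.2)⟩

theorem inLLogL_zero : InLLogL (0 : Circ → ℂ) :=
  ⟨aestronglyMeasurable_zero, by simp [modular, phi_zero]⟩

/-- One block of the construction. -/
theorem exists_block (hC : ¬ WeakModular) (j : ℕ) :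
    ∃ (k : ℕ) (h : ℕ → Circ → ℂ), (∀ l, InLLogL (h l)) ∧
      ∑ l ∈ Finset.range k, modular (h l) ≤ ((2 : ℝ≥0∞) ^ j)⁻¹ ∧
      μ {x | ∀ l < k, Smax (h l) x ≤ ((j + 1 : ℕ) : ℝ≥0∞)} ≤ ((j + 1 : ℕ) : ℝ≥0∞)⁻¹ := by
  simp only [WeakModular, not_exists, not_forall, not_le] at hC
  obtain ⟨f, hf, r, hr, hlt⟩ := hC (((j + 1 : ℕ) : ℝ≥0) ^ 2 * ((j + 1 : ℕ) : ℝ≥0) * 2 ^ j)
  set b : ℝ := ((j + 1 : ℕ) : ℝ) with hb
  have hb1 : 1 ≤ b := by simp [hb]
  set u : Circ → ℂ := fun x => f x / (r : ℂ) with hu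
  set g : Circ → ℂ := fun x => ((b / r : ℝ) : ℂ) * f x with hg
  set A := {x | ENNReal.ofReal r < Smax f x} with hA
  have hAm : MeasurableSet A := measurableSet_lt measurable_const (measurable_Smax f)
  obtain ⟨k, a, hk, ha⟩ := exists_cover hAm (ne_zero_of_lt hlt) j
  refine ⟨k, fun l x => g (x + a l), fun l => (hf.const_mul _).translate _, ?_, ?_⟩
  · have hgu : modular g ≤ ((j + 1 : ℕ) : ℝ≥0∞) ^ 2 * modular u := by
      have e : g = fun x => (b : ℂ) * u x := funext fun x => by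
        simp only [hg, hu]
        push_cast
        ring
      rw [e]
      refine (modular_const_mul_le _ _).trans (le_of_eq ?_)
      rw [Complex.norm_real, Real.norm_eq_abs, abs_of_nonneg (by linarith), max_eq_right hb1,
        ENNReal.ofReal_pow (by linarith), hb, ENNReal.ofReal_natCast]
    simp only [modular_translate, Finset.sum_const, Finset.card_range, nsmul_eq_mul]
    rw [ENNReal.le_inv_iff_mul_le]
    refine (ENNReal.mul_le_mul_iff_right (a := ((j + 1 : ℕ) : ℝ≥0∞))
      (Nat.cast_ne_zero.2 (Nat.succ_ne_zero j)) (ENNReal.natCast_ne_top _)).1 ?_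
    calc ((j + 1 : ℕ) : ℝ≥0∞) * ((k : ℝ≥0∞) * modular g * 2 ^ j)
        ≤ ((j + 1 : ℕ) : ℝ≥0∞) * ((k : ℝ≥0∞) * (((j + 1 : ℕ) : ℝ≥0∞) ^ 2 * modular u) * 2 ^ j) := by
          gcongr
      _ = (k : ℝ≥0∞) * (((((j + 1 : ℕ) : ℝ≥0) ^ 2 * ((j + 1 : ℕ) : ℝ≥0) * 2 ^ j : ℝ≥0) : ℝ≥0∞) *
          modular u) := by push_cast; ring
      _ ≤ (k : ℝ≥0∞) * μ A := mul_le_mul_right hlt.le _
      _ ≤ ((j + 1 : ℕ) : ℝ≥0∞) * 1 := by rw [mul_one]; exact hk.trans (le_of_eq (by push_cast; rfl))
  · refine le_trans (measure_mono fun x hx => (?_ : x ∈ uncovered A a k)) ha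
    intro l hl hmem
    have hs : Smax (fun y => g (y + a l)) x = Smax g (x + a l) := by
      simp only [Smax, S_translate]
    have h1 : Smax g (x + a l) ≤ ENNReal.ofReal b := by
      rw [← hs, hb, ENNReal.ofReal_natCast]
      exact hx l hl
    have h2 : Smax g (x + a l) = ENNReal.ofReal (b / r) * Smax f (x + a l) := by
      rw [hg, Smax_const_mul, ← ofReal_norm, Complex.norm_real, Real.norm_eq_abs,
        abs_of_nonneg (by positivity)]
    rw [h2, show ENNReal.ofReal b = ENNReal.ofReal (b / r) * ENNReal.ofReal r by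
      rw [← ENNReal.ofReal_mul (by positivity), div_mul_cancel₀ _ hr.ne'],
      ENNReal.mul_le_mul_iff_right (ENNReal.ofReal_pos.2 (by positivity)).ne'
        ENNReal.ofReal_ne_top] at h1
    exact absurd hmem (not_lt.2 h1)

theorem weakModular_of_noAEDivergence (hB : NoAEDivergence) : WeakModular := by
  by_contra hC
  choose k h hh hsum hcov using exists_block hC
  set H : ℕ → Circ → ℂ := fun i => if i.unpair.2 < k i.unpair.1 then h i.unpair.1 i.unpair.2 else 0
    with hH
  have hHm : ∀ i, InLLogL (H i) := fun i => by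
    simp only [hH]
    split_ifs
    · exact hh _ _
    · exact inLLogL_zero
  have hfin : ∑' i, modular (H i) ≠ ∞ := by
    rw [← Nat.pairEquiv.tsum_eq, ENNReal.tsum_prod']
    refine ne_top_of_le_ne_top (show ∑' j : ℕ, ((2 : ℝ≥0∞) ^ j)⁻¹ ≠ ∞ by
      simp_rw [ENNReal.inv_pow]
      rw [ENNReal.tsum_geometric, ENNReal.one_sub_inv_two, inv_inv]
      norm_num) (ENNReal.tsum_le_tsum fun j => ?_)
    rw [tsum_eq_sum (s := Finset.range (k j)) fun l hl => ?_]
    · refine le_of_eq_of_le (Finset.sum_congr rfl fun l hl => ?_) (hsum j)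
      simp [hH, Nat.pairEquiv_apply, Finset.mem_range.1 hl]
    · simp [hH, Nat.pairEquiv_apply, Finset.mem_range.not.1 hl, modular, phi_zero]
  suffices hx : ∀ᵐ x ∂μ, ⨆ i, Smax (H i) x = ∞ by
    obtain ⟨f, hf, hd⟩ := exists_divergent H hHm hfin hx
    exact hB f hf hd
  refine measure_mono_null (t := ⋃ J : ℕ, {x | ∀ j ≥ J, ∀ l < k j,
    Smax (h j l) x ≤ ((j + 1 : ℕ) : ℝ≥0∞)}) ?_ (measure_iUnion_null fun J => ?_)
  · intro x hx
    obtain ⟨J, hJ⟩ := ENNReal.exists_nat_gt (show ⨆ i, Smax (H i) x ≠ ∞ from hx)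
    refine Set.mem_iUnion.2 ⟨J, fun j hj l hl => ?_⟩
    have h1 : Smax (H (Nat.pair j l)) x ≤ ⨆ i, Smax (H i) x :=
      le_iSup (fun i => Smax (H i) x) _
    simp only [hH, Nat.unpair_pair, hl, if_true] at h1
    refine h1.trans (hJ.le.trans ?_)
    exact_mod_cast hj.trans (Nat.le_succ j)
  · refine le_antisymm (le_of_forall_gt_imp_ge_of_dense fun ε hε => ?_) zero_le
    obtain ⟨n, hn⟩ := ENNReal.exists_inv_nat_lt hε.ne'
    refine le_trans (measure_mono fun x hx => hx (max J n) (le_max_left _ _)) ((hcov _).trans ?_)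
    refine le_trans ?_ hn.le
    exact ENNReal.inv_le_inv.2 (by exact_mod_cast (le_max_right J n).trans (Nat.le_succ _))

theorem weakL1_of_weakModular : WeakModular → WeakL1 := by
  rintro ⟨C, hC⟩
  refine ⟨max C 1, fun f hf s hs hfs r hr => ?_⟩
  rcases le_total r s with h | h
  · refine prob_le_one.trans (one_le_mul (by exact_mod_cast le_max_right C 1) ?_)
    rw [ENNReal.one_le_ofReal, le_div_iff₀ hr, one_mul]
    exact h
  · refine (hC f hf r hr).trans (mul_le_mul (by exact_mod_cast le_max_left C 1) ?_ zero_le zero_le)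
    have e : (fun x => f x / (r : ℂ)) = fun x => f x / (s : ℂ) / ((r / s : ℝ) : ℂ) := by
      funext x
      have : (s : ℂ) ≠ 0 := by exact_mod_cast hs.ne'
      have : (r : ℂ) ≠ 0 := by exact_mod_cast hr.ne'
      push_cast
      field_simp
    rw [e]
    refine (modular_div_le ((one_le_div hs).2 h) _).trans ?_
    refine (ENNReal.div_le_div_right hfs _).trans (le_of_eq ?_)
    rw [← ENNReal.ofReal_one, ← ENNReal.ofReal_div_of_pos (by positivity), one_div_div]

theorem aeConvergence_of_weakL1 : WeakL1 → AEConvergence := by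
  rintro ⟨C, hC⟩ f hf
  have key : ∀ n : ℕ, μ {x | ¬ ∀ᶠ N in atTop, ‖S N f x - f x‖ ≤ 2 * (1 / (n + 1 : ℝ))} = 0 := by
    intro n
    set r : ℝ := 1 / (n + 1 : ℝ) with hr
    have hr0 : 0 < r := by positivity
    refine le_antisymm (le_of_forall_gt_imp_ge_of_dense fun ε hε => ?_) zero_le
    obtain ⟨e, he, hee⟩ : ∃ e : ℝ, 0 < e ∧ ENNReal.ofReal e ≤ ε := by
      rcases eq_or_ne ε ∞ with rfl | h'
      · exact ⟨1, one_pos, le_top⟩
      · exact ⟨ε.toReal, ENNReal.toReal_pos hε.ne' h', ENNReal.ofReal_toReal_le⟩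
    set s : ℝ := min 1 (e * r / (C + 2)) with hsdef
    have hC2 : (0 : ℝ) < (C : ℝ) + 2 := by positivity
    have hs : 0 < s := lt_min one_pos (by positivity)
    have hs1 : s ≤ 1 := min_le_left _ _
    obtain ⟨P, hP, hfP⟩ := exists_trig_modular hf (show 0 < s ^ 2 by positivity)
    set g : Circ → ℂ := fun x => f x - P x with hg
    have hgm : AEStronglyMeasurable g μ := hf.1.sub hP.continuous.aestronglyMeasurable
    have hgL : InLLogL g := ⟨hgm, hfP.trans_lt ENNReal.ofReal_lt_top⟩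
    have hgs : modular (fun x => g x / (s : ℂ)) ≤ 1 := by
      have e' : (fun x => g x / (s : ℂ)) = fun x => ((1 / s : ℝ) : ℂ) * g x := funext fun x => by
        push_cast; ring
      rw [e']
      refine (modular_const_mul_le _ _).trans ((mul_le_mul_right hfP _).trans (le_of_eq ?_))
      rw [Complex.norm_real, Real.norm_eq_abs, abs_of_pos (by positivity),
        max_eq_right ((one_le_div hs).2 hs1), ← ENNReal.ofReal_mul (by positivity), ← mul_pow,
        div_mul_cancel₀ _ hs.ne', one_pow, ENNReal.ofReal_one]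
    have hsub : {x | ¬ ∀ᶠ N in atTop, ‖S N f x - f x‖ ≤ 2 * r} ⊆
        {x | ENNReal.ofReal r < Smax g x} ∪ {x | ENNReal.ofReal r ≤ ‖g x‖ₑ} := by
      intro x hx
      by_contra hcon
      simp only [Set.mem_union, Set.mem_ofPred_eq, not_or, not_lt, not_le] at hcon
      refine hx ?_
      filter_upwards [hP.eventually_S] with N hN
      have e1 : S N f x = S N g x + P x := by
        rw [← hN x, ← S_add hgL.integrable hP.integrable]
        exact congrArg (fun F => S N F x) (funext fun y => by simp [hg])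
      have a1 : ‖S N g x‖ ≤ r := by
        have := (le_iSup (fun N => ‖S N g x‖ₑ) N).trans hcon.1
        rwa [← ofReal_norm, ENNReal.ofReal_le_ofReal_iff hr0.le] at this
      have a2 : ‖g x‖ < r := by
        have := hcon.2
        rwa [← ofReal_norm, ENNReal.ofReal_lt_ofReal_iff hr0] at this
      calc ‖S N f x - f x‖ = ‖S N g x - g x‖ := by
            rw [e1, show g x = f x - P x from rfl]; congr 1; ring
        _ ≤ ‖S N g x‖ + ‖g x‖ := norm_sub_le _ _
        _ ≤ 2 * r := by linarith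
    have h1 := hC g hgL s hs hgs r hr0
    have h2 : μ {x | ENNReal.ofReal r ≤ ‖g x‖ₑ} ≤ ENNReal.ofReal (2 * s / r) := by
      refine (meas_ge_le_lintegral_div hgm.enorm (ENNReal.ofReal_pos.2 hr0).ne'
        ENNReal.ofReal_ne_top).trans ?_
      rw [ENNReal.ofReal_div_of_pos hr0]
      refine ENNReal.div_le_div_right ((lintegral_enorm_le g).trans ?_) _
      rw [ENNReal.ofReal_mul zero_le_two, ENNReal.ofReal_ofNat]
      exact mul_le_mul_right (hfP.trans (ENNReal.ofReal_le_ofReal (by nlinarith))) _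
    refine (measure_mono hsub).trans ((measure_union_le _ _).trans ((add_le_add h1 h2).trans
      (le_trans (b := ENNReal.ofReal ((C : ℝ) * (s / r) + 2 * s / r)) (le_of_eq ?_)
        ((ENNReal.ofReal_le_ofReal ?_).trans hee))))
    · rw [← ENNReal.ofReal_coe_nnreal, ← ENNReal.ofReal_mul C.coe_nonneg,
        ← ENNReal.ofReal_add (by positivity) (by positivity)]
    · calc (C : ℝ) * (s / r) + 2 * s / r = s * ((C + 2) / r) := by ring
        _ ≤ e * r / (C + 2) * ((C + 2) / r) :=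
            mul_le_mul_of_nonneg_right (min_le_right _ _) (by positivity)
        _ = e := by field_simp
  have hall : ∀ᵐ x ∂μ, ∀ n : ℕ, ∀ᶠ N in atTop, ‖S N f x - f x‖ ≤ 2 * (1 / (n + 1 : ℝ)) :=
    ae_all_iff.2 fun n => key n
  filter_upwards [hall] with x hx
  refine Metric.tendsto_nhds.2 fun ε hε => ?_
  obtain ⟨n, hn⟩ := exists_nat_one_div_lt (half_pos hε)
  filter_upwards [hx n] with N hN
  rw [dist_eq_norm]
  linarith

theorem noAEDivergence_of_aeConvergence (hA : AEConvergence) : NoAEDivergence := by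
  intro f hf hd
  obtain ⟨x, hx, hx'⟩ := ((hA f hf).and hd).exists
  obtain ⟨B, hB⟩ := hx.norm.bddAbove_range
  refine absurd hx' (ne_top_of_le_ne_top (ENNReal.ofReal_ne_top (r := B)) (iSup_le fun N => ?_))
  rw [← ofReal_norm]
  exact ENNReal.ofReal_le_ofReal (hB ⟨N, rfl⟩)

theorem trigBound_of_weakL1 : WeakL1 → TrigBound := by
  rintro ⟨C, hC⟩
  refine ⟨2 * C + 1, 1 / 2, by norm_num, fun P hP hP1 => ?_⟩
  have h := hC P ⟨hP.continuous.aestronglyMeasurable, hP1.trans_lt ENNReal.one_lt_top⟩ 1 one_pos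
    (by simpa using hP1) (2 * C + 1 : ℝ) (by positivity)
  have e : ENNReal.ofReal (2 * (C : ℝ) + 1) = ((2 * C + 1 : ℝ≥0) : ℝ≥0∞) := by
    rw [← ENNReal.ofReal_coe_nnreal]; push_cast; rfl
  rw [e] at h
  refine h.trans ?_
  rw [← ENNReal.ofReal_coe_nnreal, ← ENNReal.ofReal_mul C.coe_nonneg,
    show (1 / 2 : ℝ≥0∞) = ENNReal.ofReal (1 / 2) by
      rw [ENNReal.ofReal_div_of_pos two_pos]; norm_num]
  refine ENNReal.ofReal_le_ofReal ?_
  rw [← mul_div_assoc, mul_one, div_le_div_iff₀ (by positivity) two_pos]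
  linarith [C.coe_nonneg]

theorem noAEDivergence_of_trigBound : TrigBound → NoAEDivergence := by
  rintro ⟨K, δ, hδ, hG⟩
  -- the bound passes from polynomials to the ball of radius `1 / 16`
  have hball : ∀ f, InLLogL f → modular f ≤ ENNReal.ofReal (1 / 16) →
      μ {x | ((K + 1 : ℝ≥0) : ℝ≥0∞) < Smax f x} ≤ δ := by
    intro f hf hf16
    have hun : {x | ((K + 1 : ℝ≥0) : ℝ≥0∞) < Smax f x} =
        ⋃ M : ℕ, {x | ∃ N ≤ M, ((K + 1 : ℝ≥0) : ℝ≥0∞) < ‖S N f x‖ₑ} := by
      ext x
      simp only [Set.mem_ofPred_eq, Smax, lt_iSup_iff, Set.mem_iUnion]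
      exact ⟨fun ⟨N, h⟩ => ⟨N, N, le_rfl, h⟩, fun ⟨_, N, _, h⟩ => ⟨N, h⟩⟩
    have hmono : Monotone fun M : ℕ =>
        {x | ∃ N ≤ M, ((K + 1 : ℝ≥0) : ℝ≥0∞) < ‖S N f x‖ₑ} :=
      fun M M' h x ⟨N, hN, hx⟩ => ⟨N, hN.trans h, hx⟩
    rw [hun, hmono.measure_iUnion]
    refine iSup_le fun M => ?_
    set η : ℝ := 1 / (16 * (2 * M + 1)) with hη
    have hη0 : 0 < η := by positivity
    have hη16 : η ≤ 1 / 16 := by
      rw [hη]; gcongr; linarith [(Nat.cast_nonneg M : (0 : ℝ) ≤ M)]
    obtain ⟨P, hP, hfP⟩ := exists_trig_modular hf hη0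
    have hP1 : modular P ≤ 1 := by
      have e : modular (fun x => P x - f x) = modular (fun x => f x - P x) := by
        simp only [modular, norm_sub_rev]
      calc modular P = modular (fun x => f x + (P x - f x)) := by simp
        _ ≤ 4 * (modular f + modular (fun x => P x - f x)) := modular_add_le hf.1
        _ ≤ 4 * (ENNReal.ofReal (1 / 16) + ENNReal.ofReal (1 / 16)) := by
          rw [e]; gcongr; exact hfP.trans (ENNReal.ofReal_le_ofReal hη16)
        _ ≤ 1 := by
          rw [← ENNReal.ofReal_add (by norm_num) (by norm_num),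
            show (4 : ℝ≥0∞) = ENNReal.ofReal 4 by norm_num, ← ENNReal.ofReal_mul (by norm_num)]
          exact ENNReal.ofReal_le_one.2 (by norm_num)
    refine le_trans (measure_mono fun x hx => ?_) (hG P hP hP1)
    obtain ⟨N, hN, hx⟩ := hx
    refine lt_of_lt_of_le ?_ (le_iSup (fun N => ‖S N P x‖ₑ) N)
    have hd : Integrable (fun x => f x - P x) μ := hf.integrable.sub hP.integrable
    have h1 : ∫ y, ‖f y - P y‖ ∂μ ≤ 2 * η := by
      rw [integral_norm_eq_lintegral_enorm hd.1]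
      refine ENNReal.toReal_le_of_le_ofReal (by positivity) ((lintegral_enorm_le _).trans ?_)
      rw [ENNReal.ofReal_mul zero_le_two, ENNReal.ofReal_ofNat]
      exact mul_le_mul_right hfP _
    have h2 : ‖S N (fun y => f y - P y) x‖ ≤ 1 / 8 := by
      refine (norm_S_le N _ x).trans ?_
      calc (2 * (N : ℝ) + 1) * ∫ y, ‖f y - P y‖ ∂μ ≤ (2 * (M : ℝ) + 1) * (2 * η) := by
            gcongr
        _ = 1 / 8 := by rw [hη]; field_simp; norm_num
    have h3 : S N f x = S N P x + S N (fun y => f y - P y) x := by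
      rw [← S_add hP.integrable hd]
      exact congrArg (fun F => S N F x) (funext fun y => by simp)
    rw [← ofReal_norm, ← ENNReal.ofReal_coe_nnreal,
      ENNReal.ofReal_lt_ofReal_iff_of_nonneg (NNReal.coe_nonneg _)] at hx ⊢
    rw [h3] at hx
    push_cast at hx
    linarith [norm_add_le (S N P x) (S N (fun y => f y - P y) x)]
  intro f hf hd
  obtain ⟨c, hc, hc1⟩ : ∃ c : ℝ, modular f ≤ ENNReal.ofReal (c / 16) ∧ 1 ≤ c := by
    refine ⟨16 * (modular f).toReal + 1, ?_, by linarith [(ENNReal.toReal_nonneg : 0 ≤ (modular f).toReal)]⟩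
    nth_rw 1 [← ENNReal.ofReal_toReal hf.2.ne]
    exact ENNReal.ofReal_le_ofReal (by linarith)
  set g : Circ → ℂ := fun x => f x / (c : ℂ) with hg
  have hg16 : modular g ≤ ENNReal.ofReal (1 / 16) := by
    refine (modular_div_le hc1 f).trans ((ENNReal.div_le_div_right hc _).trans (le_of_eq ?_))
    rw [← ENNReal.ofReal_div_of_pos (by linarith)]
    congr 1
    field_simp
  have hgL : InLLogL g := ⟨by simpa [hg, div_eq_mul_inv] using hf.1.mul_const (c : ℂ)⁻¹,
    hg16.trans_lt ENNReal.ofReal_lt_top⟩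
  have hgd : ∀ᵐ x ∂μ, x ∈ {x | ((K + 1 : ℝ≥0) : ℝ≥0∞) < Smax g x} := by
    filter_upwards [hd] with x hx
    have e : g = fun y => (c : ℂ)⁻¹ * f y := funext fun y => by simp [hg, div_eq_inv_mul]
    show _ < Smax g x
    rw [e, Smax_const_mul, hx, ENNReal.mul_top]
    · exact ENNReal.coe_lt_top
    · simp
      linarith
  have := hball g hgL hg16
  have h1 : μ {x | ((K + 1 : ℝ≥0) : ℝ≥0∞) < Smax g x} = 1 :=
    (measure_congr (eventuallyEq_univ.2 hgd)).trans measure_univ
  exact absurd (h1 ▸ this) (not_le.2 hδ)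

/-- A.e. convergence on `L log L` is equivalent to the weak type estimates. -/
theorem convergence_tfae :
    [AEConvergence, NoAEDivergence, WeakModular, WeakL1, TrigBound].TFAE := by
  tfae_have 1 → 2 := noAEDivergence_of_aeConvergence
  tfae_have 2 → 3 := weakModular_of_noAEDivergence
  tfae_have 3 → 4 := weakL1_of_weakModular
  tfae_have 4 → 1 := aeConvergence_of_weakL1
  tfae_have 4 → 5 := trigBound_of_weakL1
  tfae_have 5 → 2 := noAEDivergence_of_trigBound
  tfae_finish

end Vale.Agent.P091
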