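import Vale.Agent.P091.Defs

/-!
Elementary properties of `u log (2 + u)` and of its modular.
-/

noncomputable section

open MeasureTheory
open scoped ENNReal Real

namespace Vale.Agent.P091

theorem phi_zero : phi 0 = 0 := by simp [phi]

theorem phi_nonneg {u : ℝ} (hu : 0 ≤ u) : 0 ≤ phi u :=
  mul_nonneg hu (Real.log_nonneg (by linarith))

theorem phi_mono {u v : ℝ} (hu : 0 ≤ u) (h : u ≤ v) : phi u ≤ phi v :=
  mul_le_mul h (Real.log_le_log (by linarith) (by linarith)) (Real.log_nonneg (by linarith))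
    (by linarith)

theorem phi_div_mono {s u : ℝ} (hs : 0 ≤ s) (h : s ≤ u) : phi s * u ≤ phi u * s := by
  have := Real.log_le_log (show (0 : ℝ) < 2 + s by linarith) (show 2 + s ≤ 2 + u by linarith)
  have h1 := mul_le_mul_of_nonneg_left this (mul_nonneg hs (hs.trans h))
  unfold phi
  linarith

theorem phi_sq_anti {s u : ℝ} (hs : 0 ≤ s) (h : s ≤ u) : phi u * s ^ 2 ≤ phi s * u ^ 2 := by
  have h2 : (0 : ℝ) < 2 + s := by linarith
  have hlow : s / (2 + s) ≤ Real.log (2 + s) := by
    have := Real.one_sub_inv_le_log_of_pos h2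
    have e : 1 - (2 + s)⁻¹ = (1 + s) / (2 + s) := by
      field_simp
      ring
    rw [e] at this
    exact le_trans (div_le_div_of_nonneg_right (by linarith) h2.le) this
  have hup : Real.log (2 + u) - Real.log (2 + s) ≤ (u - s) / (2 + s) := by
    rw [← Real.log_div (by linarith) h2.ne']
    refine (Real.log_le_sub_one_of_pos (div_pos (by linarith) h2)).trans (le_of_eq ?_)
    field_simp
    ring
  have key : Real.log (2 + u) * s ≤ Real.log (2 + s) * u := by
    have a := mul_le_mul_of_nonneg_right hup hs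
    have b := mul_le_mul_of_nonneg_right hlow (sub_nonneg.2 h)
    have e : (u - s) / (2 + s) * s = s / (2 + s) * (u - s) := by ring
    linarith
  have := mul_le_mul_of_nonneg_left key (mul_nonneg (hs.trans h) hs)
  unfold phi
  linarith

theorem phi_mul_le {u c : ℝ} (hu : 0 ≤ u) (hc : 1 ≤ c) : phi (c * u) ≤ c ^ 2 * phi u := by
  rcases hu.eq_or_lt with h | h
  · simp [← h, phi_zero]
  · have := phi_sq_anti hu (le_mul_of_one_le_left hu hc)
    have e : phi u * (c * u) ^ 2 = (c ^ 2 * phi u) * u ^ 2 := by ring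
    rw [e] at this
    exact le_of_mul_le_mul_right this (by positivity)

theorem phi_div_le {u c : ℝ} (hu : 0 ≤ u) (hc : 1 ≤ c) : phi (u / c) ≤ phi u / c := by
  have hc0 : 0 < c := by linarith
  rcases hu.eq_or_lt with h | h
  · simp [← h, phi_zero]
  · have := phi_div_mono (show 0 ≤ u / c by positivity) (div_le_self hu hc)
    rw [show phi u * (u / c) = phi u / c * u by ring] at this
    exact le_of_mul_le_mul_right this h

theorem phi_add_le {a b : ℝ} (ha : 0 ≤ a) (hb : 0 ≤ b) : phi (a + b) ≤ 4 * (phi a + phi b) := by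
  have h1 := phi_mul_le (le_max_of_le_left hb : 0 ≤ max b a) (show (1 : ℝ) ≤ 2 by norm_num)
  refine (phi_mono (by linarith) ?_).trans (h1.trans ?_)
  · linarith [le_max_left b a, le_max_right b a]
  · rcases max_cases b a with ⟨h, -⟩ | ⟨h, -⟩ <;> rw [h] <;>
      linarith [phi_nonneg ha, phi_nonneg hb]

theorem self_le_phi {u : ℝ} (hu : 0 ≤ u) : u ≤ 2 * phi u := by
  have h : (1 : ℝ) / 2 ≤ Real.log (2 + u) :=
    le_trans (by linarith [Real.log_two_gt_d9]) (Real.log_le_log two_pos (by linarith))
  have := mul_le_mul_of_nonneg_left h hu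
  unfold phi
  linarith

theorem phi_le_sq {u : ℝ} (hu : 0 ≤ u) : phi u ≤ u + u ^ 2 := by
  have h := Real.log_le_sub_one_of_pos (show (0 : ℝ) < 2 + u by linarith)
  have := mul_le_mul_of_nonneg_left h hu
  unfold phi
  nlinarith

theorem continuous_phi_norm {E : Type*} [SeminormedAddCommGroup E] :
    Continuous fun z : E => phi ‖z‖ := by
  unfold phi
  refine continuous_norm.mul (Continuous.log (by fun_prop) fun z => ?_)
  have := norm_nonneg z
  linarith

theorem aemeasurable_phi {f : Circ → ℂ} (hf : AEStronglyMeasurable f μ) :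
    AEMeasurable (fun x => ENNReal.ofReal (phi ‖f x‖)) μ :=
  ((continuous_phi_norm.measurable.comp_aemeasurable hf.aemeasurable)).ennreal_ofReal

theorem modular_congr {f g : Circ → ℂ} (h : f =ᵐ[μ] g) : modular f = modular g :=
  lintegral_congr_ae (h.mono fun x hx => by simp only [hx])

theorem modular_mono {f g : Circ → ℂ} (h : ∀ᵐ x ∂μ, ‖f x‖ ≤ ‖g x‖) : modular f ≤ modular g :=
  lintegral_mono_ae (h.mono fun x hx => ENNReal.ofReal_le_ofReal (phi_mono (norm_nonneg _) hx))

/-- Scaling up costs at most the square. -/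
theorem modular_const_mul_le (c : ℂ) (f : Circ → ℂ) :
    modular (fun x => c * f x) ≤ ENNReal.ofReal (max 1 ‖c‖ ^ 2) * modular f := by
  rw [modular, modular, ← lintegral_const_mul' _ _ ENNReal.ofReal_ne_top]
  refine lintegral_mono fun x => ?_
  rw [← ENNReal.ofReal_mul (sq_nonneg _)]
  refine ENNReal.ofReal_le_ofReal ?_
  rw [norm_mul]
  exact (phi_mono (by positivity) (mul_le_mul_of_nonneg_right (le_max_right 1 _) (norm_nonneg _))).trans
    (phi_mul_le (norm_nonneg _) (le_max_left _ _))

/-- Scaling down gains the factor. -/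
theorem modular_div_le {c : ℝ} (hc : 1 ≤ c) (f : Circ → ℂ) :
    modular (fun x => f x / (c : ℂ)) ≤ modular f / ENNReal.ofReal c := by
  have hc0 : 0 < c := by linarith
  rw [modular, modular, ENNReal.div_eq_inv_mul, ← ENNReal.ofReal_inv_of_pos hc0,
    ← lintegral_const_mul' _ _ ENNReal.ofReal_ne_top]
  refine lintegral_mono fun x => ?_
  rw [← ENNReal.ofReal_mul (by positivity)]
  refine ENNReal.ofReal_le_ofReal ?_
  rw [norm_div, Complex.norm_real, Real.norm_eq_abs, abs_of_pos hc0, inv_mul_eq_div]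
  exact phi_div_le (norm_nonneg _) hc

theorem modular_add_le {f g : Circ → ℂ} (hf : AEStronglyMeasurable f μ) :
    modular (fun x => f x + g x) ≤ 4 * (modular f + modular g) := by
  rw [modular, modular, modular, ← lintegral_add_left' (aemeasurable_phi hf),
    ← lintegral_const_mul' _ _ (by norm_num)]
  refine lintegral_mono fun x => ?_
  rw [← ENNReal.ofReal_add (phi_nonneg (norm_nonneg _)) (phi_nonneg (norm_nonneg _)),
    show (4 : ℝ≥0∞) = ENNReal.ofReal 4 by norm_num, ← ENNReal.ofReal_mul (by norm_num)]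
  exact ENNReal.ofReal_le_ofReal
    ((phi_mono (norm_nonneg _) (norm_add_le _ _)).trans (phi_add_le (norm_nonneg _) (norm_nonneg _)))

theorem lintegral_enorm_le (f : Circ → ℂ) : ∫⁻ x, ‖f x‖ₑ ∂μ ≤ 2 * modular f := by
  rw [modular, ← lintegral_const_mul' _ _ (by norm_num)]
  refine lintegral_mono fun x => ?_
  rw [← ofReal_norm, show (2 : ℝ≥0∞) = ENNReal.ofReal 2 by norm_num,
    ← ENNReal.ofReal_mul (by norm_num)]
  exact ENNReal.ofReal_le_ofReal (self_le_phi (norm_nonneg _))

theorem InLLogL.integrable {f : Circ → ℂ} (hf : InLLogL f) : Integrable f μ :=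
  ⟨hf.1, (lintegral_enorm_le f).trans_lt (ENNReal.mul_lt_top (by norm_num) hf.2)⟩

end Vale.Agent.P091
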