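import Vale.Agent.P091.Basic

/-!
Independent uniform multipliers: square function bound and small ball bound.
-/

noncomputable section

open MeasureTheory Filter
open scoped ENNReal Real Topology

namespace Vale.Agent.P091

/-- The uniform probability measure on `[-1, 1]`. -/
def unif : Measure ℝ := (2 : ℝ≥0∞)⁻¹ • volume.restrict (Set.Icc (-1) 1)

instance : IsProbabilityMeasure unif := ⟨by
  rw [unif, Measure.smul_apply, Measure.restrict_apply_univ, Real.volume_Icc, smul_eq_mul,
    show (1 : ℝ) - -1 = 2 by norm_num, ENNReal.ofReal_ofNat, ENNReal.inv_mul_cancel] <;> norm_num⟩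

/-- The law of the multipliers. -/
def rand : Measure (ℕ → ℝ) := Measure.infinitePi fun _ => unif

instance : IsProbabilityMeasure rand := by unfold rand; infer_instance

/-- The retraction to `[-1, 1]`. -/
def clip (s : ℝ) : ℝ := max (-1) (min 1 s)

theorem abs_clip_le (s : ℝ) : |clip s| ≤ 1 :=
  abs_le.2 ⟨le_max_left _ _, max_le (by norm_num) (min_le_left _ _)⟩

theorem clip_neg (s : ℝ) : clip (-s) = -clip s := by
  simp only [clip]
  simp only [max_def, min_def]
  split_ifs <;> linarith

theorem clip_of_mem {s : ℝ} (h : s ∈ Set.Icc (-1 : ℝ) 1) : clip s = s := by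
  rw [clip, min_eq_right h.2, max_eq_right h.1]

theorem clip_zero : clip 0 = 0 := by simp [clip]

theorem measurable_clip : Measurable clip := measurable_const.max (measurable_const.min measurable_id)

theorem unif_map_neg : unif.map (fun s => -s) = unif := by
  refine Measure.ext fun A hA => ?_
  rw [Measure.map_apply measurable_neg hA]
  simp only [unif, Measure.smul_apply, Measure.restrict_apply (measurable_neg hA),
    Measure.restrict_apply hA]
  congr 1
  conv_rhs => rw [← Measure.measure_preimage_neg volume]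
  refine congrArg volume (Set.ext fun s => ?_)
  simp only [Set.mem_inter_iff, Set.mem_preimage, Set.mem_Icc]
  exact and_congr_right fun _ => ⟨fun h => ⟨by linarith [h.2], by linarith [h.1]⟩,
    fun h => ⟨by linarith [h.2], by linarith [h.1]⟩⟩

theorem rand_map_flip (i : ℕ) :
    MeasurePreserving (fun t : ℕ → ℝ => Function.update t i (-t i)) rand rand := by
  refine ⟨by fun_prop, ?_⟩
  set f : ℕ → ℝ → ℝ := Function.update (fun _ => id) i (fun s => -s) with hf
  have hfm : ∀ j, Measurable (f j) := fun j => by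
    rcases eq_or_ne j i with rfl | h
    · simpa [hf] using measurable_neg
    · simpa [hf, h] using measurable_id
  have e : (fun t : ℕ → ℝ => Function.update t i (-t i)) = fun t j => f j (t j) := by
    funext t j
    rcases eq_or_ne j i with rfl | h <;> simp_all
  rw [e, rand, Measure.infinitePi_map_pi _ hfm]
  refine congrArg Measure.infinitePi (funext fun j => ?_)
  rcases eq_or_ne j i with rfl | h
  · simp [hf, unif_map_neg]
  · simp [hf, h]

theorem rand_resample (i : ℕ) :
    MeasurePreserving (fun p : (ℕ → ℝ) × ℝ => Function.update p.1 i p.2) (rand.prod unif) rand := by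
  have hm : Measurable (fun p : (ℕ → ℝ) × ℝ => Function.update p.1 i p.2) := by fun_prop
  refine ⟨hm, Measure.eq_infinitePi (fun _ => unif) fun s T hT => ?_⟩
  rw [Measure.map_apply hm (MeasurableSet.pi s.countable_toSet fun j _ => hT j)]
  by_cases hi : i ∈ s
  · have e : (fun p : (ℕ → ℝ) × ℝ => Function.update p.1 i p.2) ⁻¹' (s : Set ℕ).pi T =
        ((s.erase i : Finset ℕ) : Set ℕ).pi T ×ˢ T i := by
      ext ⟨t, u⟩
      simp only [Set.mem_preimage, Set.mem_pi, Finset.mem_coe, Set.mem_prod, Finset.mem_erase]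
      constructor
      · exact fun h => ⟨fun j hj => by simpa [hj.1] using h j hj.2, by simpa using h i hi⟩
      · rintro ⟨h, hu⟩ j hj
        rcases eq_or_ne j i with rfl | hji
        · simpa using hu
        · simpa [hji] using h j ⟨hji, hj⟩
    rw [e, Measure.prod_prod, rand, Measure.infinitePi_pi _ (fun j _ => hT j),
      Finset.prod_erase_mul _ _ hi]
  · have e : (fun p : (ℕ → ℝ) × ℝ => Function.update p.1 i p.2) ⁻¹' (s : Set ℕ).pi T =
        (s : Set ℕ).pi T ×ˢ (Set.univ : Set ℝ) := by
      ext ⟨t, u⟩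
      simp only [Set.mem_preimage, Set.mem_pi, Finset.mem_coe, Set.mem_prod, Set.mem_univ, and_true]
      exact forall₂_congr fun j hj => by rw [Function.update_of_ne (ne_of_mem_of_not_mem hj hi)]
    rw [e, Measure.prod_prod, rand, Measure.infinitePi_pi _ (fun j _ => hT j), measure_univ, mul_one]

/-- The randomised partial sum. -/
def randSum (z : ℕ → ℂ) (n : ℕ) (t : ℕ → ℝ) : ℂ := ∑ i ∈ Finset.range n, (clip (t i) : ℂ) * z i

theorem measurable_randSum (z : ℕ → ℂ) (n : ℕ) : Measurable (randSum z n) :=
  Finset.measurable_sum _ fun i _ =>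
    ((Complex.measurable_ofReal.comp (measurable_clip.comp (measurable_pi_apply i))).mul_const _)

theorem lintegral_randSum_sq (z : ℕ → ℂ) (n : ℕ) :
    ∫⁻ t, ENNReal.ofReal (‖randSum z n t‖ ^ 2) ∂rand ≤
      ENNReal.ofReal (∑ i ∈ Finset.range n, ‖z i‖ ^ 2) := by
  induction n with
  | zero => simp [randSum]
  | succ n ih =>
    have hsucc : ∀ t, randSum z (n + 1) t = randSum z n t + (clip (t n) : ℂ) * z n := fun t =>
      Finset.sum_range_succ _ _
    have hflip : ∀ t : ℕ → ℝ, randSum z (n + 1) (Function.update t n (-t n)) =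
        randSum z n t - (clip (t n) : ℂ) * z n := by
      intro t
      rw [hsucc, Function.update_self, clip_neg]
      push_cast
      rw [neg_mul, ← sub_eq_add_neg]
      refine congrArg (fun w => w - (clip (t n) : ℂ) * z n) (Finset.sum_congr rfl fun i hi => ?_)
      rw [Function.update_of_ne (Finset.mem_range.1 hi).ne]
    have hm : Measurable fun t => ENNReal.ofReal (‖randSum z (n + 1) t‖ ^ 2) :=
      ((measurable_randSum z (n + 1)).norm.pow_const 2).ennreal_ofReal
    have h2 : 2 * ∫⁻ t, ENNReal.ofReal (‖randSum z (n + 1) t‖ ^ 2) ∂rand ≤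
        2 * ENNReal.ofReal (∑ i ∈ Finset.range (n + 1), ‖z i‖ ^ 2) := by
      have hr := (rand_map_flip n).lintegral_comp hm
      simp only [hflip] at hr
      rw [two_mul]
      nth_rw 2 [← hr]
      rw [← lintegral_add_left hm, Finset.sum_range_succ,
        ENNReal.ofReal_add (Finset.sum_nonneg fun i _ => sq_nonneg _) (sq_nonneg _)]
      refine le_trans (lintegral_mono (g := fun t => 2 * (ENNReal.ofReal (‖z n‖ ^ 2) +
        ENNReal.ofReal (‖randSum z n t‖ ^ 2))) fun t => ?_) (le_trans (le_of_eq ?_)
        (mul_le_mul_right (add_le_add_right ih (ENNReal.ofReal (‖z n‖ ^ 2))) 2 |>.trans_eq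
          (by ring)))
      · simp only
        rw [← ENNReal.ofReal_add (sq_nonneg _) (sq_nonneg _), ← ENNReal.ofReal_add (sq_nonneg _)
          (sq_nonneg _), show (2 : ℝ≥0∞) = ENNReal.ofReal 2 by norm_num,
          ← ENNReal.ofReal_mul (by norm_num)]
        refine ENNReal.ofReal_le_ofReal ?_
        rw [hsucc]
        have hp := parallelogram_law_with_norm ℝ (randSum z n t) ((clip (t n) : ℂ) * z n)
        have hb : ‖(clip (t n) : ℂ) * z n‖ ≤ ‖z n‖ := by
          rw [norm_mul, Complex.norm_real, Real.norm_eq_abs]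
          exact mul_le_of_le_one_left (norm_nonneg _) (abs_clip_le _)
        nlinarith [mul_self_le_mul_self (norm_nonneg _) hb]
      · rw [lintegral_const_mul' _ _ (by norm_num), lintegral_add_left measurable_const,
          lintegral_const, measure_univ, mul_one]
    exact (ENNReal.mul_le_mul_iff_right (by norm_num) (by norm_num)).1 h2

theorem lintegral_phi_randSum (z : ℕ → ℂ) (n : ℕ) :
    ∫⁻ t, ENNReal.ofReal (phi ‖randSum z n t‖) ∂rand ≤
      2 * ∑' i, ENNReal.ofReal (phi ‖z i‖) := by
  set Q := ∑ i ∈ Finset.range n, ‖z i‖ ^ 2 with hQ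
  rcases (show 0 ≤ Q from Finset.sum_nonneg fun i _ => sq_nonneg _).eq_or_lt with h0 | h0
  · have hz : ∀ i ∈ Finset.range n, z i = 0 := fun i hi => by
      have := (Finset.sum_eq_zero_iff_of_nonneg (fun i _ => sq_nonneg ‖z i‖)).1 h0.symm i hi
      simpa using this
    have : ∀ t, randSum z n t = 0 := fun t =>
      Finset.sum_eq_zero fun i hi => by rw [hz i hi, mul_zero]
    simp [this, phi_zero]
  · set s := √Q with hs
    have hs0 : 0 < s := Real.sqrt_pos.2 h0
    have hs2 : s ^ 2 = Q := Real.sq_sqrt h0.le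
    have hpt : ∀ u : ℝ, 0 ≤ u → phi u ≤ phi s + phi s / Q * u ^ 2 := by
      intro u hu
      have hp := phi_nonneg hs0.le
      rcases le_total u s with h | h
      · exact (phi_mono hu h).trans (le_add_of_nonneg_right (by positivity))
      · refine le_add_of_nonneg_of_le hp ?_
        rw [div_mul_eq_mul_div, le_div_iff₀ h0, ← hs2]
        exact phi_sq_anti hs0.le h
    have hphi : phi s ≤ ∑ i ∈ Finset.range n, phi ‖z i‖ := by
      refine le_of_mul_le_mul_right ?_ h0
      rw [Finset.sum_mul]
      conv_lhs => rw [hQ, Finset.mul_sum]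
      refine Finset.sum_le_sum fun i hi => ?_
      rw [← hs2]
      refine phi_sq_anti (norm_nonneg _) ?_
      exact Real.le_sqrt_of_sq_le (Finset.single_le_sum (f := fun i => ‖z i‖ ^ 2)
        (fun i _ => sq_nonneg _) hi)
    refine (lintegral_mono (g := fun t => ENNReal.ofReal (phi s) +
      ENNReal.ofReal (phi s / Q) * ENNReal.ofReal (‖randSum z n t‖ ^ 2)) fun t => ?_).trans ?_
    · simp only
      rw [← ENNReal.ofReal_mul (div_nonneg (phi_nonneg hs0.le) h0.le),
        ← ENNReal.ofReal_add (phi_nonneg hs0.le)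
          (mul_nonneg (div_nonneg (phi_nonneg hs0.le) h0.le) (sq_nonneg _))]
      exact ENNReal.ofReal_le_ofReal (hpt _ (norm_nonneg _))
    · rw [lintegral_add_left measurable_const, lintegral_const, measure_univ, mul_one,
        lintegral_const_mul' _ _ ENNReal.ofReal_ne_top]
      refine (add_le_add_right (mul_le_mul_right (lintegral_randSum_sq z n) _) _).trans ?_
      rw [← hQ, ← ENNReal.ofReal_mul (div_nonneg (phi_nonneg hs0.le) h0.le),
        div_mul_cancel₀ _ h0.ne', ← two_mul]
      refine mul_le_mul_right ((ENNReal.ofReal_le_ofReal hphi).trans ?_) _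
      rw [ENNReal.ofReal_sum_of_nonneg fun i _ => phi_nonneg (norm_nonneg _)]
      exact ENNReal.sum_le_tsum _

/-- The small ball bound for one uniform multiplier. -/
theorem unif_small_ball {a : ℂ} (ha : a ≠ 0) (b : ℂ) (R : ℝ) :
    unif {s | ‖(clip s : ℂ) * a + b‖ ≤ R} ≤ ENNReal.ofReal (R / ‖a‖) := by
  have hm : MeasurableSet {s | ‖(clip s : ℂ) * a + b‖ ≤ R} :=
    measurableSet_le (((Complex.measurable_ofReal.comp measurable_clip).mul_const a).add_const b).norm
      measurable_const
  have hd : Metric.ediam ({s | ‖(clip s : ℂ) * a + b‖ ≤ R} ∩ Set.Icc (-1) 1) ≤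
      ENNReal.ofReal (2 * R / ‖a‖) := by
    refine Metric.ediam_le_of_forall_dist_le fun x hx y hy => ?_
    have hx' : ‖(x : ℂ) * a + b‖ ≤ R := by simpa [clip_of_mem hx.2] using hx.1
    have hy' : ‖(y : ℂ) * a + b‖ ≤ R := by simpa [clip_of_mem hy.2] using hy.1
    rw [le_div_iff₀ (norm_pos_iff.2 ha), Real.dist_eq, ← Real.norm_eq_abs, ← Complex.norm_real,
      ← norm_mul]
    calc ‖((x - y : ℝ) : ℂ) * a‖ = ‖((x : ℂ) * a + b) - ((y : ℂ) * a + b)‖ := by
          push_cast; ring_nf
      _ ≤ 2 * R := (norm_sub_le _ _).trans (by linarith)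
  rw [unif, Measure.smul_apply, Measure.restrict_apply hm, smul_eq_mul]
  refine (mul_le_mul_right ((Real.volume_le_diam _).trans hd) _).trans (le_of_eq ?_)
  rw [← ENNReal.ofReal_ofNat, ← ENNReal.ofReal_inv_of_pos two_pos,
    ← ENNReal.ofReal_mul (by norm_num)]
  congr 1
  ring

end Vale.Agent.P091
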